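import Vale.Agent.P248.Defs

/-!
# P248, module ASYM
-/

namespace Vale.Agent.P248

open MeasureTheory ENNReal

namespace AsymX

theorem sv_pos (n : ℕ) : simplexVal n ≠ 0 := by
  unfold simplexVal
  have : 0 < ((n : ℝ) + 1) ^ (n + 1) / (n.factorial : ℝ) ^ 2 := by positivity
  simpa using this

theorem sv_top (n : ℕ) : simplexVal n ≠ ∞ := ENNReal.ofReal_ne_top

theorem iterate (hM : S_MULT) (hB : S_BODY) {ι : Type} [Fintype ι] {K : Set (ι → ℝ)}
    (hK : IsBody K) (m : ℕ) : ∃ (κ : Type) (_ : Fintype κ) (L : Set (κ → ℝ)), IsBody L ∧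
      Fintype.card κ + 1 = (m + 1) * (Fintype.card ι + 1) ∧
      volProd L / simplexVal (Fintype.card κ) =
        (volProd K / simplexVal (Fintype.card ι)) ^ (m + 1) := by
  induction m with
  | zero => exact ⟨ι, inferInstance, K, hK, by ring, by simp⟩
  | succ m ih =>
    obtain ⟨κ, _, L, hL, hc, hq⟩ := ih
    refine ⟨(κ ⊕ ι) ⊕ Unit, inferInstance, join L K, hB κ ι L K hL hK, ?_, ?_⟩
    · simp only [Fintype.card_sum, Fintype.card_unit]
      have : (m + 1 + 1) * (Fintype.card ι + 1) =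
        (m + 1) * (Fintype.card ι + 1) + (Fintype.card ι + 1) := by ring
      rw [this, ← hc]
      ring
    · have h1 := hM κ ι L K hL hK
      simp only [Fintype.card_sum, Fintype.card_unit]
      rw [h1, hq, ← pow_succ]

end AsymX

open AsymX in
theorem asym (hM : S_MULT) (hB : S_BODY) : S_ASYM := by
  intro H ι _ K hK
  by_contra hlt
  rw [not_le] at hlt
  set n := Fintype.card ι with hn
  set q : ℝ≥0∞ := volProd K / simplexVal n with hq
  have hq1 : q < 1 := by
    rw [hq, ENNReal.div_lt_iff (Or.inl (sv_pos n)) (Or.inl (sv_top n)), one_mul]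
    exact hlt
  have hqt : q ≠ ∞ := (hq1.trans ENNReal.one_lt_top).ne
  set r : ℝ := q.toReal with hr
  have hr0 : 0 ≤ r := ENNReal.toReal_nonneg
  have hqr : q = ENNReal.ofReal r := (ENNReal.ofReal_toReal hqt).symm
  have hr1 : r < 1 := by
    have := (ENNReal.toReal_lt_toReal hqt ENNReal.one_ne_top).2 hq1
    simpa using this
  set ε : ℝ := (1 - r) / (2 * (n + 1)) with hε
  have hn0 : (0 : ℝ) < n + 1 := by positivity
  have hε0 : 0 < ε := by
    rw [hε]
    exact div_pos (by linarith) (by linarith)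
  have hεn : (n + 1) * ε = (1 - r) / 2 := by
    rw [hε]; field_simp
  have hε1 : ε < 1 := by
    have h1 : ε ≤ (n + 1) * ε := by
      have : (0 : ℝ) ≤ n * ε := by positivity
      nlinarith
    linarith
  have hbern : (1 + r) / 2 ≤ (1 - ε) ^ (n + 1) := by
    have := one_add_mul_le_pow (a := -ε) (by linarith) (n + 1)
    have e : (1 : ℝ) + ((n + 1 : ℕ) : ℝ) * -ε = (1 + r) / 2 := by
      push_cast
      linear_combination (-1 : ℝ) * hεn
    rw [e] at this
    simpa [sub_eq_add_neg] using this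
  obtain ⟨c, hc, hH⟩ := H ε hε0 hε1
  have hρ : 2 * r / (1 + r) < 1 := by
    rw [div_lt_one (by linarith)]
    linarith
  have hρ0 : 0 ≤ 2 * r / (1 + r) := by positivity
  obtain ⟨m, hm⟩ := exists_pow_lt_of_lt_one hc hρ
  obtain ⟨κ, _, L, hL, hcard, hval⟩ := iterate hM hB hK m
  have h1 := hH κ L hL
  rw [← ENNReal.le_div_iff_mul_le (Or.inl (sv_pos _)) (Or.inl (sv_top _)), hval, ← hn, ← hq, hqr,
    ← ENNReal.ofReal_pow hr0] at h1
  have h2 : c * (1 - ε) ^ Fintype.card κ ≤ r ^ (m + 1) :=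
    (ENNReal.ofReal_le_ofReal_iff (by positivity)).1 h1
  have hδ0 : 0 ≤ 1 - ε := by linarith
  have h3 : ((1 + r) / 2) ^ (m + 1) ≤ (1 - ε) ^ Fintype.card κ := by
    calc ((1 + r) / 2) ^ (m + 1) ≤ ((1 - ε) ^ (n + 1)) ^ (m + 1) :=
          pow_le_pow_left₀ (by linarith) hbern _
      _ = (1 - ε) ^ (Fintype.card κ + 1) := by
          rw [← pow_mul, hcard, mul_comm]
      _ ≤ (1 - ε) ^ Fintype.card κ := pow_le_pow_of_le_one hδ0 (by linarith) (Nat.le_succ _)
  have h4 : c * ((1 + r) / 2) ^ (m + 1) ≤ r ^ (m + 1) :=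
    (mul_le_mul_of_nonneg_left h3 hc.le).trans h2
  have h5 : c ≤ (2 * r / (1 + r)) ^ (m + 1) := by
    have hp : (0 : ℝ) < ((1 + r) / 2) ^ (m + 1) := by positivity
    have e : (2 * r / (1 + r)) ^ (m + 1) = r ^ (m + 1) / ((1 + r) / 2) ^ (m + 1) := by
      rw [← div_pow]
      congr 1
      field_simp
    rw [e, le_div_iff₀ hp]
    exact h4
  have h6 : (2 * r / (1 + r)) ^ (m + 1) ≤ (2 * r / (1 + r)) ^ m :=
    pow_le_pow_of_le_one hρ0 hρ.le (Nat.le_succ _)
  linarith

end Vale.Agent.P248
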