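import Vale.Agent.P248.Defs

/-!
# P248: beta integrals
-/

namespace Vale.Agent.P248

open MeasureTheory Set

theorem beta : S_BETA := by
  intro k
  induction k with
  | zero =>
    intro l
    simp only [pow_zero, one_mul, integral_pow, bet, Nat.factorial_zero, Nat.cast_one, zero_add]
    rw [Nat.factorial_succ]
    push_cast
    have h1 : ((l : ℝ) + 1) ≠ 0 := by positivity
    have h2 : (l.factorial : ℝ) ≠ 0 := by positivity
    rw [one_pow, zero_pow (by omega), sub_zero]
    field_simp
  | succ k ih =>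
    intro l
    have hl : ((l : ℝ) + 1) ≠ 0 := by positivity
    have hder : ∀ t : ℝ, HasDerivAt (fun t : ℝ => (1 - t) ^ (k + 1) * t ^ (l + 1) / ((l : ℝ) + 1))
        ((1 - t) ^ (k + 1) * t ^ l - ((k : ℝ) + 1) / ((l : ℝ) + 1) * ((1 - t) ^ k * t ^ (l + 1)))
        t := by
      intro t
      have h1 : HasDerivAt (fun t : ℝ => 1 - t) (-1) t := (hasDerivAt_id t).const_sub 1
      have h2 := h1.pow (k + 1)
      have h3 := (hasDerivAt_id t).pow (l + 1)
      have h4 := (h2.mul h3).div_const ((l : ℝ) + 1)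
      refine h4.congr_deriv ?_
      simp only [id_eq, Nat.add_sub_cancel, Pi.pow_apply]
      push_cast
      field_simp
      ring
    have hint := intervalIntegral.integral_eq_sub_of_hasDerivAt (a := (0 : ℝ)) (b := 1)
      (fun t _ => hder t) (Continuous.intervalIntegrable (by fun_prop) _ _)
    rw [intervalIntegral.integral_sub (Continuous.intervalIntegrable (by fun_prop) _ _)
      (Continuous.intervalIntegrable (by fun_prop) _ _), intervalIntegral.integral_const_mul,
      ih (l + 1)] at hint
    simp only [sub_self, ne_eq, Nat.add_eq_zero_iff, one_ne_zero, and_false, not_false_eq_true,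
      zero_pow, zero_mul, zero_div, mul_zero, sub_zero] at hint
    rw [sub_eq_zero.1 hint]
    unfold bet
    have e1 : k + (l + 1) + 1 = k + 1 + l + 1 := by ring
    rw [e1, Nat.factorial_succ l, Nat.factorial_succ k]
    push_cast
    field_simp

theorem betas (hB : S_BETA) : S_BETAS := by
  intro k l s hs0 hs1
  have h1s : 0 < 1 - s := by linarith
  have hc : s * (1 - s) ≠ 0 := (mul_pos hs0 h1s).ne'
  have h := intervalIntegral.integral_comp_sub_mul (a := -(1 / s)) (b := 1 / (1 - s))
    (fun t : ℝ => ((1 - t) / (1 - s)) ^ k * (t / s) ^ l) hc s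
  have e1 : s - s * (1 - s) * (1 / (1 - s)) = 0 := by field_simp; ring
  have e2 : s - s * (1 - s) * (-(1 / s)) = 1 := by field_simp; ring
  rw [e1, e2] at h
  have e3 : ∫ r in (-(1 / s))..(1 / (1 - s)), (1 + s * r) ^ k * (1 - (1 - s) * r) ^ l
      = ∫ x in (-(1 / s))..(1 / (1 - s)), ((1 - (s - s * (1 - s) * x)) / (1 - s)) ^ k
        * ((s - s * (1 - s) * x) / s) ^ l := by
    refine intervalIntegral.integral_congr fun r _ => ?_
    have e4 : (1 - (s - s * (1 - s) * r)) / (1 - s) = 1 + s * r := by field_simp; ring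
    have e5 : (s - s * (1 - s) * r) / s = 1 - (1 - s) * r := by field_simp
    rw [e4, e5]
  rw [e3, h]
  have e6 : ∀ t : ℝ, ((1 - t) / (1 - s)) ^ k * (t / s) ^ l
      = ((1 - s) ^ k * s ^ l)⁻¹ * ((1 - t) ^ k * t ^ l) := by
    intro t
    rw [div_pow, div_pow]
    field_simp
  rw [intervalIntegral.integral_congr (fun t _ => e6 t), intervalIntegral.integral_const_mul, hB k l,
    smul_eq_mul]
  have h2 : (1 - s) ^ k ≠ 0 := (pow_pos h1s k).ne'
  have h3 : s ^ l ≠ 0 := (pow_pos hs0 l).ne'
  have h4 := h1s.ne'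
  have h5 := hs0.ne'
  rw [pow_succ, pow_succ]
  field_simp

end Vale.Agent.P248
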