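import Vale.Agent.P248.Int

/-!
# P248, module BODY
-/

namespace Vale.Agent.P248

open MeasureTheory ENNReal

namespace BodyX

variable {ι κ : Type} [Fintype ι] [Fintype κ]

theorem join_eq_image (K : Set (ι → ℝ)) (L : Set (κ → ℝ)) :
    join K L = (fun p : (ι → ℝ) × (κ → ℝ) × ℝ => jpt p.1 p.2.1 p.2.2) ''
      (K ×ˢ L ×ˢ Set.Icc (0 : ℝ) 1) := by
  ext w
  constructor
  · rintro ⟨t, ht, x, hx, y, hy, rfl⟩
    exact ⟨(x, y, t), ⟨hx, hy, ht⟩, rfl⟩
  · rintro ⟨⟨x, y, t⟩, ⟨hx, hy, ht⟩, rfl⟩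
    exact ⟨t, ht, x, hx, y, hy, rfl⟩

/-- a convex combination of `α` times a point and `β` times a point is `α + β` times a point -/
theorem comb {K : Set (ι → ℝ)} (hK : Convex ℝ K) {x x' : ι → ℝ} (hx : x ∈ K) (hx' : x' ∈ K)
    {α β : ℝ} (hα : 0 ≤ α) (hβ : 0 ≤ β) :
    ∃ z ∈ K, ∀ i, (α + β) * z i = α * x i + β * x' i := by
  rcases (add_nonneg hα hβ).eq_or_lt with h | h
  · have h1 : α = 0 := by linarith
    have h2 : β = 0 := by linarith
    exact ⟨x, hx, fun i => by rw [h1, h2]; ring⟩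
  · refine ⟨(α / (α + β)) • x + (β / (α + β)) • x', hK hx hx' (by positivity) (by positivity) ?_, ?_⟩
    · field_simp
    · intro i
      simp only [Pi.add_apply, Pi.smul_apply, smul_eq_mul]
      field_simp

theorem convex_join {K : Set (ι → ℝ)} {L : Set (κ → ℝ)} (hK : Convex ℝ K) (hL : Convex ℝ L) :
    Convex ℝ (join K L) := by
  rintro _ ⟨t, ht, x, hx, y, hy, rfl⟩ _ ⟨t', ht', x', hx', y', hy', rfl⟩ a b ha hb hab
  obtain ⟨z, hz, hzi⟩ := comb hK hx hx' (α := a * (1 - t)) (β := b * (1 - t'))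
    (mul_nonneg ha (by linarith [ht.2])) (mul_nonneg hb (by linarith [ht'.2]))
  obtain ⟨z', hz', hzi'⟩ := comb hL hy hy' (α := a * t) (β := b * t')
    (mul_nonneg ha ht.1) (mul_nonneg hb ht'.1)
  refine ⟨a * t + b * t', ⟨?_, ?_⟩, z, hz, z', hz', ?_⟩
  · exact add_nonneg (mul_nonneg ha ht.1) (mul_nonneg hb ht'.1)
  · nlinarith [ht.2, ht'.2]
  · funext c
    rcases c with (i | j) | u
    · show a * ((1 - t) * x i) + b * ((1 - t') * x' i) = (1 - (a * t + b * t')) * z i
      have := hzi i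
      have e : 1 - (a * t + b * t') = a * (1 - t) + b * (1 - t') := by
        linear_combination (-1 : ℝ) * hab
      rw [e, this]; ring
    · show a * (t * y j) + b * (t' * y' j) = (a * t + b * t') * z' j
      rw [hzi' j]; ring
    · show a * t + b * t' = a * t + b * t'
      rfl

end BodyX

open BodyX in
theorem body : S_BODY := by
  intro ι κ _ _ K L hK hL
  refine ⟨?_, convex_join hK.convex hL.convex, ?_⟩
  · rw [join_eq_image]
    exact (hK.compact.prod (hL.compact.prod isCompact_Icc)).image IntX.cont_jpt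
  · obtain ⟨z, hz⟩ := hK.int
    obtain ⟨z', hz'⟩ := hL.int
    exact ⟨_, IntX.of_int (s := 1 / 2) (by norm_num) (by norm_num) hz hz'⟩

end Vale.Agent.P248
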