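import Mathlib

/-!
# P248 (partial): the volume product of joins. Definitions.
`ℝ^n` is `ι → ℝ` for a finite type `ι` with `n` elements.
-/

namespace Vale.Agent.P248

open MeasureTheory ENNReal

/-- convex bodies: compact, convex, nonempty interior -/
structure IsBody {ι : Type} [Fintype ι] (K : Set (ι → ℝ)) : Prop where
  compact : IsCompact K
  convex : Convex ℝ K
  int : (interior K).Nonempty

/-- the polar body `(K - z)°` -/
def polar {ι : Type} [Fintype ι] (K : Set (ι → ℝ)) (z : ι → ℝ) : Set (ι → ℝ) :=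
  {y | ∀ x ∈ K, ∑ i, y i * (x i - z i) ≤ 1}

/-- the volume product `P(K)` -/
noncomputable def volProd {ι : Type} [Fintype ι] (K : Set (ι → ℝ)) : ℝ≥0∞ :=
  ⨅ z ∈ interior K, volume K * volume (polar K z)

/-- the conjectured minimum `(n+1)^(n+1) / (n!)^2` -/
noncomputable def simplexVal (n : ℕ) : ℝ≥0∞ :=
  ENNReal.ofReal (((n : ℝ) + 1) ^ (n + 1) / (n.factorial : ℝ) ^ 2)

/-- the point `((1 - t) x, t y, t)` of `ℝ^ι × ℝ^κ × ℝ` -/
def jpt {ι κ : Type} (x : ι → ℝ) (y : κ → ℝ) (t : ℝ) : (ι ⊕ κ) ⊕ Unit → ℝ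
  | Sum.inl (Sum.inl i) => (1 - t) * x i
  | Sum.inl (Sum.inr j) => t * y j
  | Sum.inr _ => t

/-- the join of `K ⊆ ℝ^ι` and `L ⊆ ℝ^κ`: the union of all segments from `(x, 0, 0)`, `x ∈ K`, to
`(0, y, 1)`, `y ∈ L` -/
def join {ι κ : Type} (K : Set (ι → ℝ)) (L : Set (κ → ℝ)) : Set ((ι ⊕ κ) ⊕ Unit → ℝ) :=
  {w | ∃ t ∈ Set.Icc (0 : ℝ) 1, ∃ x ∈ K, ∃ y ∈ L, w = jpt x y t}

end Vale.Agent.P248
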