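import Vale.Agent.P248.Core

/-!
# P248 (partial): module statements
-/

namespace Vale.Agent.P248

open MeasureTheory ENNReal

/-! ## Auxiliary objects -/

/-- `k! l! / (k + l + 1)!` -/
noncomputable def bet (k l : ℕ) : ℝ :=
  (k.factorial : ℝ) * (l.factorial : ℝ) / ((k + l + 1).factorial : ℝ)

/-- coordinates in the product space -/
def split {ι κ : Type} (w : (ι ⊕ κ) ⊕ Unit → ℝ) : ((ι → ℝ) × (κ → ℝ)) × ℝ :=
  ((fun i => w (Sum.inl (Sum.inl i)), fun j => w (Sum.inl (Sum.inr j))), w (Sum.inr ()))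

/-- the half-space like sets `{u | ∀ x ∈ K, ⟨u, x - z⟩ ≤ c}` -/
def lev {ι : Type} [Fintype ι] (K : Set (ι → ℝ)) (z : ι → ℝ) (c : ℝ) : Set (ι → ℝ) :=
  {u | ∀ x ∈ K, ∑ i, u i * (x i - z i) ≤ c}

/-! ## Modules -/

/-- BETA -/
def S_BETA : Prop := ∀ k l : ℕ, ∫ t in (0 : ℝ)..1, (1 - t) ^ k * t ^ l = bet k l

/-- BETAS (from BETA): substitution `1 - t = (1 - s) (1 + s r)`, `t = s (1 - (1 - s) r)` -/
def S_BETAS : Prop := ∀ (k l : ℕ) (s : ℝ), 0 < s → s < 1 →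
  ∫ r in (-(1 / s))..(1 / (1 - s)), (1 + s * r) ^ k * (1 - (1 - s) * r) ^ l =
    bet k l / ((1 - s) ^ (k + 1) * s ^ (l + 1))

/-- EQV: `split` preserves volume and interiors -/
def S_EQV : Prop := ∀ (ι κ : Type) [Fintype ι] [Fintype κ] (S : Set (((ι → ℝ) × (κ → ℝ)) × ℝ)),
  volume (split ⁻¹' S) = volume S ∧ interior (split ⁻¹' S) = split ⁻¹' (interior S)

/-- VJ (from BETA, EQV): the volume of the join -/
def S_VJ : Prop := ∀ (ι κ : Type) [Fintype ι] [Fintype κ] (K : Set (ι → ℝ)) (L : Set (κ → ℝ)),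
  IsBody K → IsBody L → volume (join K L) =
    volume K * volume L * ENNReal.ofReal (bet (Fintype.card ι) (Fintype.card κ))

/-- SLICE: `lev K z c = c • polar K z` for `c > 0` -/
def S_SLICE : Prop := ∀ (ι : Type) [Fintype ι] (K : Set (ι → ℝ)) (z : ι → ℝ) (c : ℝ), 0 < c →
  volume (lev K z c) = ENNReal.ofReal (c ^ Fintype.card ι) * volume (polar K z)

/-- VS (from BETAS, SLICE): the sheared polar body, by slices over `r` -/
def S_VS : Prop := ∀ (ι κ : Type) [Fintype ι] [Fintype κ] (K : Set (ι → ℝ)) (L : Set (κ → ℝ))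
  (z : ι → ℝ) (z' : κ → ℝ) (s : ℝ), IsBody K → IsBody L → z ∈ K → z' ∈ L → 0 < s → s < 1 →
  volume {p : ((ι → ℝ) × (κ → ℝ)) × ℝ | p.1.1 ∈ lev K z (1 + s * p.2) ∧
      p.1.2 ∈ lev L z' (1 - (1 - s) * p.2)} =
    volume (polar K z) * volume (polar L z') *
      ENNReal.ofReal (bet (Fintype.card ι) (Fintype.card κ) /
        ((1 - s) ^ (Fintype.card ι + 1) * s ^ (Fintype.card κ + 1)))

/-- SHEAR: invariance of the volume under shears -/
def S_SHEAR : Prop := ∀ (ι κ : Type) [Fintype ι] [Fintype κ] (g : (ι → ℝ) × (κ → ℝ) → ℝ),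
  Continuous g → ∀ S : Set (((ι → ℝ) × (κ → ℝ)) × ℝ), MeasurableSet S →
  volume ((fun p : ((ι → ℝ) × (κ → ℝ)) × ℝ => (p.1, p.2 + g p.1)) ⁻¹' S) = volume S

/-- VPOL (from VS, SHEAR, EQV): the volume of the polar of the join; the polar body is the set of
the `w` with `split w = ((u, v), r)` and, for `ρ = r + ⟨v, z'⟩ - ⟨u, z⟩`,
`u ∈ lev K z (1 + s ρ)`, `v ∈ lev L z' (1 - (1 - s) ρ)` -/
def S_VPOL : Prop := ∀ (ι κ : Type) [Fintype ι] [Fintype κ] (K : Set (ι → ℝ)) (L : Set (κ → ℝ))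
  (z : ι → ℝ) (z' : κ → ℝ) (s : ℝ), IsBody K → IsBody L → z ∈ K → z' ∈ L → 0 < s → s < 1 →
  volume (polar (join K L) (jpt z z' s)) =
    volume (polar K z) * volume (polar L z') *
      ENNReal.ofReal (bet (Fintype.card ι) (Fintype.card κ) /
        ((1 - s) ^ (Fintype.card ι + 1) * s ^ (Fintype.card κ + 1)))

/-- INT (from EQV): the interior of the join -/
def S_INT : Prop := ∀ (ι κ : Type) [Fintype ι] [Fintype κ] (K : Set (ι → ℝ)) (L : Set (κ → ℝ)),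
  IsBody K → IsBody L → ∀ w, w ∈ interior (join K L) ↔
    ∃ s, 0 < s ∧ s < 1 ∧ ∃ z ∈ interior K, ∃ z' ∈ interior L, w = jpt z z' s

/-- BODY (from INT): the join of convex bodies is a convex body -/
def S_BODY : Prop := ∀ (ι κ : Type) [Fintype ι] [Fintype κ] (K : Set (ι → ℝ)) (L : Set (κ → ℝ)),
  IsBody K → IsBody L → IsBody (join K L)

/-- OPT: weighted AM-GM, equality at `s = (l + 1) / (k + l + 2)` -/
def S_OPT : Prop := ∀ k l : ℕ,
  (∀ s : ℝ, 0 < s → s < 1 → (1 - s) ^ (k + 1) * s ^ (l + 1) ≤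
    ((k : ℝ) + 1) ^ (k + 1) * ((l : ℝ) + 1) ^ (l + 1) / ((k : ℝ) + l + 2) ^ (k + l + 2)) ∧
  ∃ s : ℝ, 0 < s ∧ s < 1 ∧ (1 - s) ^ (k + 1) * s ^ (l + 1) =
    ((k : ℝ) + 1) ^ (k + 1) * ((l : ℝ) + 1) ^ (l + 1) / ((k : ℝ) + l + 2) ^ (k + l + 2)

/-- MULT (from VJ, VPOL, INT, OPT): the normalised volume product is multiplicative under joins -/
def S_MULT : Prop := ∀ (ι κ : Type) [Fintype ι] [Fintype κ] (K : Set (ι → ℝ)) (L : Set (κ → ℝ)),
  IsBody K → IsBody L →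
  volProd (join K L) / simplexVal (Fintype.card ι + Fintype.card κ + 1) =
    (volProd K / simplexVal (Fintype.card ι)) * (volProd L / simplexVal (Fintype.card κ))

/-- ASYM (from MULT, BODY): the conjectured inequality follows from its asymptotic form -/
def S_ASYM : Prop := (∀ ε : ℝ, 0 < ε → ε < 1 → ∃ c : ℝ, 0 < c ∧ ∀ (ι : Type) [Fintype ι]
    (K : Set (ι → ℝ)), IsBody K →
    ENNReal.ofReal (c * (1 - ε) ^ Fintype.card ι) * simplexVal (Fintype.card ι) ≤ volProd K) →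
  ∀ (ι : Type) [Fintype ι] (K : Set (ι → ℝ)), IsBody K →
    simplexVal (Fintype.card ι) ≤ volProd K

/-- HULL: the join is the convex hull of the two bodies in their skew positions -/
def S_HULL : Prop := ∀ (ι κ : Type) [Fintype ι] [Fintype κ] (K : Set (ι → ℝ)) (L : Set (κ → ℝ)),
  IsBody K → IsBody L →
  join K L = convexHull ℝ ({w | ∃ x ∈ K, w = jpt x 0 0} ∪ {w | ∃ y ∈ L, w = jpt 0 y 1})

end Vale.Agent.P248
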