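import Vale.Agent.P248.Defs

/-!
# P248, module EQV
-/

namespace Vale.Agent.P248

open MeasureTheory ENNReal

namespace EqvX

variable (ι κ : Type) [Fintype ι] [Fintype κ]

/-- `split` as a measurable equivalence -/
noncomputable def em : ((ι ⊕ κ) ⊕ Unit → ℝ) ≃ᵐ ((ι → ℝ) × (κ → ℝ)) × ℝ :=
  (MeasurableEquiv.sumPiEquivProdPi (fun _ : (ι ⊕ κ) ⊕ Unit => ℝ)).trans
    (MeasurableEquiv.prodCongr (MeasurableEquiv.sumPiEquivProdPi (fun _ : ι ⊕ κ => ℝ))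
      (MeasurableEquiv.funUnique Unit ℝ))

theorem em_coe : (em ι κ : ((ι ⊕ κ) ⊕ Unit → ℝ) → _) = split := rfl

/-- `split` as a homeomorphism -/
def eh : ((ι ⊕ κ) ⊕ Unit → ℝ) ≃ₜ ((ι → ℝ) × (κ → ℝ)) × ℝ :=
  (Homeomorph.sumPiEquivProdPi (ι ⊕ κ) Unit (fun _ : (ι ⊕ κ) ⊕ Unit => ℝ)).trans
    (Homeomorph.prodCongr (Homeomorph.sumPiEquivProdPi ι κ (fun _ : ι ⊕ κ => ℝ))
      (Homeomorph.funUnique Unit ℝ))

theorem eh_coe : (eh ι κ : ((ι ⊕ κ) ⊕ Unit → ℝ) → _) = split := rfl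

theorem em_mp : MeasurePreserving (em ι κ) volume volume := by
  have h1 := volume_measurePreserving_sumPiEquivProdPi (fun _ : (ι ⊕ κ) ⊕ Unit => ℝ)
  have h2 := volume_measurePreserving_sumPiEquivProdPi (fun _ : ι ⊕ κ => ℝ)
  have h3 := volume_preserving_funUnique Unit ℝ
  exact (h2.prod h3).comp h1

end EqvX

open EqvX in
theorem eqv : S_EQV := by
  intro ι κ _ _ S
  constructor
  · rw [← em_coe]
    exact (em_mp ι κ).measure_preimage_equiv S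
  · rw [← eh_coe]
    exact ((eh ι κ).preimage_interior S).symm

end Vale.Agent.P248
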