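import Vale.Agent.P248.Defs

/-!
# P248: the join is a convex hull
-/

namespace Vale.Agent.P248

open MeasureTheory Set

namespace HullX

variable {ι κ : Type}

lemma mix {α : Type} (K : Set (α → ℝ)) (hK : Convex ℝ K) (x1 x2 : α → ℝ) (h1 : x1 ∈ K)
    (h2 : x2 ∈ K) (p q : ℝ) (hp : 0 ≤ p) (hq : 0 ≤ q) :
    ∃ x ∈ K, ∀ i, (p + q) * x i = p * x1 i + q * x2 i := by
  rcases eq_or_lt_of_le (add_nonneg hp hq) with h | h
  · have hp0 : p = 0 := by linarith
    have hq0 : q = 0 := by linarith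
    exact ⟨x1, h1, fun i => by rw [hp0, hq0]; ring⟩
  · refine ⟨(p / (p + q)) • x1 + (q / (p + q)) • x2, hK h1 h2 (by positivity) (by positivity)
      (by rw [← add_div, div_self h.ne']), fun i => ?_⟩
    simp only [Pi.add_apply, Pi.smul_apply, smul_eq_mul]
    field_simp

lemma convex_join (K : Set (ι → ℝ)) (L : Set (κ → ℝ)) (hK : Convex ℝ K) (hL : Convex ℝ L) :
    Convex ℝ (join K L) := by
  rintro _ ⟨t1, ht1, x1, hx1, y1, hy1, rfl⟩ _ ⟨t2, ht2, x2, hx2, y2, hy2, rfl⟩ a b ha hb hab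
  obtain ⟨x, hx, hxe⟩ := mix K hK x1 x2 hx1 hx2 (a * (1 - t1)) (b * (1 - t2))
    (mul_nonneg ha (by linarith [ht1.2])) (mul_nonneg hb (by linarith [ht2.2]))
  obtain ⟨y, hy, hye⟩ := mix L hL y1 y2 hy1 hy2 (a * t1) (b * t2)
    (mul_nonneg ha ht1.1) (mul_nonneg hb ht2.1)
  refine ⟨a * t1 + b * t2, ⟨?_, ?_⟩, x, hx, y, hy, ?_⟩
  · exact add_nonneg (mul_nonneg ha ht1.1) (mul_nonneg hb ht2.1)
  · have h1 : a * t1 ≤ a * 1 := mul_le_mul_of_nonneg_left ht1.2 ha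
    have h2 : b * t2 ≤ b * 1 := mul_le_mul_of_nonneg_left ht2.2 hb
    linarith
  · ext c
    rcases c with (i | j) | u
    · change a * ((1 - t1) * x1 i) + b * ((1 - t2) * x2 i) = (1 - (a * t1 + b * t2)) * x i
      have h1 := hxe i
      have h2 : a * (1 - t1) + b * (1 - t2) = 1 - (a * t1 + b * t2) := by linarith
      rw [h2] at h1
      rw [h1]
      ring
    · change a * (t1 * y1 j) + b * (t2 * y2 j) = (a * t1 + b * t2) * y j
      rw [hye j]
      ring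
    · rfl

end HullX

theorem hull : S_HULL := by
  intro ι κ _ _ K L hK hL
  obtain ⟨z, hz⟩ := hK.int
  obtain ⟨z', hz'⟩ := hL.int
  have hz := interior_subset hz
  have hz' := interior_subset hz'
  apply Subset.antisymm
  · rintro _ ⟨t, ht, x, hx, y, hy, rfl⟩
    have h1 : jpt x 0 0 ∈ convexHull ℝ ({w : (ι ⊕ κ) ⊕ Unit → ℝ | ∃ x ∈ K, w = jpt x 0 0} ∪
        {w | ∃ y ∈ L, w = jpt 0 y 1}) := subset_convexHull ℝ _ (Or.inl ⟨x, hx, rfl⟩)
    have h2 : jpt 0 y 1 ∈ convexHull ℝ ({w : (ι ⊕ κ) ⊕ Unit → ℝ | ∃ x ∈ K, w = jpt x 0 0} ∪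
        {w | ∃ y ∈ L, w = jpt 0 y 1}) := subset_convexHull ℝ _ (Or.inr ⟨y, hy, rfl⟩)
    have h3 := convex_convexHull ℝ _ h1 h2 (a := 1 - t) (b := t) (by linarith [ht.2]) ht.1
      (by ring)
    convert h3 using 1
    ext c
    rcases c with (i | j) | u
    · simp [jpt]
    · simp [jpt]
    · simp [jpt]
  · apply convexHull_min _ (HullX.convex_join K L hK.convex hL.convex)
    rintro w (⟨x, hx, rfl⟩ | ⟨y, hy, rfl⟩)
    · refine ⟨0, ⟨le_rfl, zero_le_one⟩, x, hx, z', hz', ?_⟩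
      ext c
      rcases c with (i | j) | u
      · simp [jpt]
      · simp [jpt]
      · simp [jpt]
    · refine ⟨1, ⟨zero_le_one, le_rfl⟩, z, hz, y, hy, ?_⟩
      ext c
      rcases c with (i | j) | u
      · simp [jpt]
      · simp [jpt]
      · simp [jpt]

end Vale.Agent.P248
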