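import Vale.Agent.P248.Defs

/-!
# P248, module INT
-/

namespace Vale.Agent.P248

open MeasureTheory ENNReal

namespace IntX

variable {ι κ : Type} [Fintype ι] [Fintype κ]

theorem jpt_inj {x x' : ι → ℝ} {y y' : κ → ℝ} {t t' : ℝ} (h : jpt x y t = jpt x' y' t') :
    t = t' ∧ (∀ i, (1 - t) * x i = (1 - t') * x' i) ∧ (∀ j, t * y j = t' * y' j) := by
  refine ⟨congrFun h (Sum.inr ()), fun i => ?_, fun j => ?_⟩
  · exact congrFun h (Sum.inl (Sum.inl i))
  · exact congrFun h (Sum.inl (Sum.inr j))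

theorem cont_jpt : Continuous fun p : (ι → ℝ) × (κ → ℝ) × ℝ => jpt p.1 p.2.1 p.2.2 := by
  refine continuous_pi fun a => ?_
  rcases a with (i | j) | u
  · show Continuous fun p : (ι → ℝ) × (κ → ℝ) × ℝ => (1 - p.2.2) * p.1 i
    fun_prop
  · show Continuous fun p : (ι → ℝ) × (κ → ℝ) × ℝ => p.2.2 * p.2.1 j
    fun_prop
  · show Continuous fun p : (ι → ℝ) × (κ → ℝ) × ℝ => p.2.2
    fun_prop

theorem mem_int_left {K : Set (ι → ℝ)} {L : Set (κ → ℝ)} {x : ι → ℝ} {y : κ → ℝ} {t : ℝ}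
    (h : jpt x y t ∈ interior (join K L)) (ht : t < 1) : x ∈ interior K := by
  have hc : Continuous fun x' : ι → ℝ => jpt x' y t :=
    cont_jpt.comp (by fun_prop : Continuous fun x' : ι → ℝ => (x', y, t))
  have ho : IsOpen ((fun x' : ι → ℝ => jpt x' y t) ⁻¹' interior (join K L)) :=
    isOpen_interior.preimage hc
  refine interior_maximal ?_ ho h
  intro x' hx'
  obtain ⟨t1, -, x1, hx1, y1, -, he⟩ := interior_subset hx'
  obtain ⟨h1, h2, -⟩ := jpt_inj he
  have : x' = x1 := by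
    funext i
    have := h2 i
    rw [← h1] at this
    exact mul_left_cancel₀ (by linarith) this
  rw [this]
  exact hx1

theorem mem_int_right {K : Set (ι → ℝ)} {L : Set (κ → ℝ)} {x : ι → ℝ} {y : κ → ℝ} {t : ℝ}
    (h : jpt x y t ∈ interior (join K L)) (ht : 0 < t) : y ∈ interior L := by
  have hc : Continuous fun y' : κ → ℝ => jpt x y' t :=
    cont_jpt.comp (by fun_prop : Continuous fun y' : κ → ℝ => (x, y', t))
  have ho : IsOpen ((fun y' : κ → ℝ => jpt x y' t) ⁻¹' interior (join K L)) :=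
    isOpen_interior.preimage hc
  refine interior_maximal ?_ ho h
  intro y' hy'
  obtain ⟨t1, -, x1, -, y1, hy1, he⟩ := interior_subset hy'
  obtain ⟨h1, -, h2⟩ := jpt_inj he
  have : y' = y1 := by
    funext i
    have := h2 i
    rw [← h1] at this
    exact mul_left_cancel₀ (by linarith) this
  rw [this]
  exact hy1

theorem mem_int_t {K : Set (ι → ℝ)} {L : Set (κ → ℝ)} {w : (ι ⊕ κ) ⊕ Unit → ℝ}
    (h : w ∈ interior (join K L)) : 0 < w (Sum.inr ()) ∧ w (Sum.inr ()) < 1 := by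
  classical
  have hc : Continuous fun ε : ℝ => w + ε • (Pi.single (Sum.inr ()) 1 : (ι ⊕ κ) ⊕ Unit → ℝ) := by
    fun_prop
  have ho : IsOpen ((fun ε : ℝ => w + ε • (Pi.single (Sum.inr ()) 1 : (ι ⊕ κ) ⊕ Unit → ℝ)) ⁻¹'
      interior (join K L)) := isOpen_interior.preimage hc
  have h0 : (0 : ℝ) ∈ (fun ε : ℝ => w + ε • (Pi.single (Sum.inr ()) 1 : (ι ⊕ κ) ⊕ Unit → ℝ)) ⁻¹'
      interior (join K L) := by simpa using h
  obtain ⟨δ, hδ, hb⟩ := Metric.isOpen_iff.1 ho 0 h0
  have key : ∀ ε : ℝ, |ε| < δ → 0 ≤ w (Sum.inr ()) + ε ∧ w (Sum.inr ()) + ε ≤ 1 := by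
    intro ε hε
    have h1 : ε ∈ Metric.ball (0 : ℝ) δ := by
      rw [Metric.mem_ball, Real.dist_eq, sub_zero]; exact hε
    obtain ⟨t, ht, x, -, y, -, he⟩ := interior_subset (hb h1)
    have h2 := congrFun he (Sum.inr ())
    have h3 : w (Sum.inr ()) + ε = t := by
      simpa [jpt] using h2
    rw [h3]
    exact ht
  have a1 := key (δ / 2) (by rw [abs_of_pos (by linarith)]; linarith)
  have a2 := key (-(δ / 2)) (by rw [abs_neg, abs_of_pos (by linarith)]; linarith)
  constructor <;> linarith [a1.2, a2.1]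

theorem of_int {K : Set (ι → ℝ)} {L : Set (κ → ℝ)} {z : ι → ℝ} {z' : κ → ℝ} {s : ℝ}
    (hs0 : 0 < s) (hs1 : s < 1) (hz : z ∈ interior K) (hz' : z' ∈ interior L) :
    jpt z z' s ∈ interior (join K L) := by
  let O : Set ((ι ⊕ κ) ⊕ Unit → ℝ) := {w | 0 < w (Sum.inr ()) ∧ w (Sum.inr ()) < 1}
  have hO : IsOpen O := by
    apply IsOpen.inter
    · exact isOpen_lt continuous_const (continuous_apply _)
    · exact isOpen_lt (continuous_apply _) continuous_const
  let f : ((ι ⊕ κ) ⊕ Unit → ℝ) → (ι → ℝ) × (κ → ℝ) := fun w =>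
    (fun i => (1 - w (Sum.inr ()))⁻¹ * w (Sum.inl (Sum.inl i)),
      fun j => (w (Sum.inr ()))⁻¹ * w (Sum.inl (Sum.inr j)))
  have hf : ContinuousOn f O := by
    refine ContinuousOn.prodMk ?_ ?_
    · refine continuousOn_pi.2 fun i => ContinuousOn.mul (ContinuousOn.inv₀ ?_ ?_) ?_
      · exact (continuous_const.sub (continuous_apply _)).continuousOn
      · intro w hw
        have := hw.2
        exact ne_of_gt (by linarith)
      · exact (continuous_apply _).continuousOn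
    · refine continuousOn_pi.2 fun i => ContinuousOn.mul (ContinuousOn.inv₀ ?_ ?_) ?_
      · exact (continuous_apply _).continuousOn
      · intro w hw
        exact ne_of_gt hw.1
      · exact (continuous_apply _).continuousOn
  have hU : IsOpen (O ∩ f ⁻¹' (interior K ×ˢ interior L)) :=
    hf.isOpen_inter_preimage hO (isOpen_interior.prod isOpen_interior)
  refine interior_maximal ?_ hU ?_
  · rintro w ⟨hw, hw1, hw2⟩
    refine ⟨w (Sum.inr ()), ⟨hw.1.le, hw.2.le⟩, (f w).1, interior_subset hw1, (f w).2,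
      interior_subset hw2, ?_⟩
    have h1 : 1 - w (Sum.inr ()) ≠ 0 := ne_of_gt (by linarith [hw.2])
    have h2 : w (Sum.inr ()) ≠ 0 := ne_of_gt hw.1
    funext a
    rcases a with (i | j) | u
    · show w (Sum.inl (Sum.inl i)) =
        (1 - w (Sum.inr ())) * ((1 - w (Sum.inr ()))⁻¹ * w (Sum.inl (Sum.inl i)))
      rw [mul_inv_cancel_left₀ h1]
    · show w (Sum.inl (Sum.inr j)) = w (Sum.inr ()) * ((w (Sum.inr ()))⁻¹ * w (Sum.inl (Sum.inr j)))
      rw [mul_inv_cancel_left₀ h2]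
    · rfl
  · have h1 : 1 - s ≠ 0 := ne_of_gt (by linarith)
    have h2 : s ≠ 0 := ne_of_gt hs0
    have e1 : (f (jpt z z' s)).1 = z := by
      funext i
      show (1 - s)⁻¹ * ((1 - s) * z i) = z i
      rw [inv_mul_cancel_left₀ h1]
    have e2 : (f (jpt z z' s)).2 = z' := by
      funext i
      show s⁻¹ * (s * z' i) = z' i
      rw [inv_mul_cancel_left₀ h2]
    refine ⟨⟨hs0, hs1⟩, ?_, ?_⟩
    · rw [e1]; exact hz
    · rw [e2]; exact hz'

end IntX

open IntX in
theorem int_ : S_INT := by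
  intro ι κ _ _ K L hK hL w
  constructor
  · intro hw
    obtain ⟨h0, h1⟩ := mem_int_t hw
    obtain ⟨t, ht, x, hx, y, hy, he⟩ := interior_subset hw
    subst he
    have e : jpt x y t (Sum.inr ()) = t := rfl
    rw [e] at h0 h1
    exact ⟨t, h0, h1, x, mem_int_left hw h1, y, mem_int_right hw h0, rfl⟩
  · rintro ⟨s, h0, h1, z, hz, z', hz', rfl⟩
    exact of_int h0 h1 hz hz'

end Vale.Agent.P248
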