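import Vale.Agent.P248.Defs

/-!
# P248, module MULT
-/

namespace Vale.Agent.P248

open MeasureTheory ENNReal

namespace MultX

variable {ι : Type} [Fintype ι]

theorem sum_single [DecidableEq ι] (y z : ι → ℝ) (i : ι) (r : ℝ) :
    ∑ j, y j * ((z + (Pi.single i r : ι → ℝ)) j - z j) = y i * r := by
  rw [Finset.sum_eq_single i]
  · simp
  · intro j _ hj
    simp [Pi.single_eq_of_ne hj]
  · simp

theorem polar_finite {K : Set (ι → ℝ)} {z : ι → ℝ} (hz : z ∈ interior K) :
    volume (polar K z) ≠ ∞ := by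
  classical
  obtain ⟨δ, hδ, hb⟩ := Metric.mem_nhds_iff.1 (mem_interior_iff_mem_nhds.1 hz)
  have hmem : ∀ (i : ι) (r : ℝ), |r| < δ → z + (Pi.single i r : ι → ℝ) ∈ K := by
    intro i r hr
    apply hb
    rw [Metric.mem_ball, dist_eq_norm]
    simpa [Pi.norm_single] using hr
  have hsub : polar K z ⊆ Set.Icc (fun _ => -(2 / δ)) (fun _ => 2 / δ) := by
    intro y hy
    have h1 : ∀ i, y i * (δ / 2) ≤ 1 := by
      intro i
      have := hy _ (hmem i (δ / 2) (by rw [abs_of_pos (by linarith)]; linarith))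
      rw [sum_single y z i] at this
      exact this
    have h2 : ∀ i, y i * (-(δ / 2)) ≤ 1 := by
      intro i
      have := hy _ (hmem i (-(δ / 2)) (by rw [abs_neg, abs_of_pos (by linarith)]; linarith))
      rw [sum_single y z i] at this
      exact this
    constructor
    · intro i
      have := h2 i
      show -(2 / δ) ≤ y i
      rw [neg_le, ← mul_one (-y i), le_div_iff₀ hδ]
      nlinarith
    · intro i
      have := h1 i
      show y i ≤ 2 / δ
      rw [le_div_iff₀ hδ]
      nlinarith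
  refine ((measure_mono hsub).trans_lt ?_).ne
  exact isCompact_Icc.measure_lt_top

theorem volProd_finite {K : Set (ι → ℝ)} (hK : IsBody K) : volProd K ≠ ∞ := by
  obtain ⟨z, hz⟩ := hK.int
  refine ((iInf₂_le z hz).trans_lt ?_).ne
  exact ENNReal.mul_lt_top hK.compact.measure_lt_top (polar_finite hz).lt_top

theorem bet_pos (k l : ℕ) : 0 < bet k l := by
  unfold bet; positivity

/-- the maximal value of `(1 - s)^(k+1) s^(l+1)` -/
noncomputable def Q (k l : ℕ) : ℝ :=
  ((k : ℝ) + 1) ^ (k + 1) * ((l : ℝ) + 1) ^ (l + 1) / ((k : ℝ) + l + 2) ^ (k + l + 2)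

theorem Q_pos (k l : ℕ) : 0 < Q k l := by
  unfold Q; positivity

/-- the real simplex value -/
noncomputable def sg (n : ℕ) : ℝ := ((n : ℝ) + 1) ^ (n + 1) / (n.factorial : ℝ) ^ 2

theorem sg_pos (n : ℕ) : 0 < sg n := by
  unfold sg; positivity

theorem ident (k l : ℕ) : bet k l * (bet k l / Q k l) = sg (k + l + 1) / (sg k * sg l) := by
  unfold bet Q sg
  have h1 : ((k + l + 1 : ℕ) : ℝ) + 1 = (k : ℝ) + l + 2 := by push_cast; ring
  rw [h1]
  have h2 : k + l + 1 + 1 = k + l + 2 := by ring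
  rw [h2]
  have f1 : ((k + l + 1).factorial : ℝ) ≠ 0 := by positivity
  have f2 : ((k).factorial : ℝ) ≠ 0 := by positivity
  have f3 : ((l).factorial : ℝ) ≠ 0 := by positivity
  have f4 : ((k : ℝ) + 1) ^ (k + 1) ≠ 0 := by positivity
  have f5 : ((l : ℝ) + 1) ^ (l + 1) ≠ 0 := by positivity
  have f6 : ((k : ℝ) + l + 2) ^ (k + l + 2) ≠ 0 := by positivity
  field_simp

theorem alg (A B : ℝ≥0∞) {x y w : ℝ} (hx : 0 < x) (hy : 0 < y) (hw : 0 < w) :
    A * B * ENNReal.ofReal (x / (y * w)) / ENNReal.ofReal x =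
      A / ENNReal.ofReal y * (B / ENNReal.ofReal w) := by
  rw [ENNReal.ofReal_div_of_pos (mul_pos hy hw), ENNReal.ofReal_mul hy.le]
  have hx0 : ENNReal.ofReal x ≠ 0 := by simpa using hx
  have hxt : ENNReal.ofReal x ≠ ∞ := ENNReal.ofReal_ne_top
  have hy0 : ENNReal.ofReal y ≠ 0 := by simpa using hy
  have hw0 : ENNReal.ofReal w ≠ 0 := by simpa using hw
  rw [div_eq_mul_inv, div_eq_mul_inv, div_eq_mul_inv, div_eq_mul_inv,
    ENNReal.mul_inv (Or.inl hy0) (Or.inl ENNReal.ofReal_ne_top)]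
  have : A * B * (ENNReal.ofReal x * ((ENNReal.ofReal y)⁻¹ * (ENNReal.ofReal w)⁻¹)) *
      (ENNReal.ofReal x)⁻¹ = (ENNReal.ofReal x * (ENNReal.ofReal x)⁻¹) *
      (A * (ENNReal.ofReal y)⁻¹ * (B * (ENNReal.ofReal w)⁻¹)) := by ring
  rw [this, ENNReal.mul_inv_cancel hx0 hxt, one_mul]

end MultX

open MultX in
theorem mult (hVJ : S_VJ) (hVP : S_VPOL) (hINT : S_INT) (hOPT : S_OPT) : S_MULT := by
  intro ι κ _ _ K L hK hL
  set k := Fintype.card ι with hk
  set l := Fintype.card κ with hl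
  obtain ⟨hO1, s₀, hs0, hs1, hs⟩ := hOPT k l
  have hb := bet_pos k l
  have hQ := Q_pos k l
  have hC : ENNReal.ofReal (bet k l) * ENNReal.ofReal (bet k l / Q k l) =
      ENNReal.ofReal (sg (k + l + 1) / (sg k * sg l)) := by
    rw [← ENNReal.ofReal_mul hb.le, ident]
  have hval : ∀ z ∈ interior K, ∀ z' ∈ interior L, ∀ s : ℝ, 0 < s → s < 1 →
      volume (join K L) * volume (polar (join K L) (jpt z z' s)) =
        (volume K * volume (polar K z)) * (volume L * volume (polar L z')) *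
          (ENNReal.ofReal (bet k l) *
            ENNReal.ofReal (bet k l / ((1 - s) ^ (k + 1) * s ^ (l + 1)))) := by
    intro z hz z' hz' s h0 h1
    rw [hVJ ι κ K L hK hL, hVP ι κ K L z z' s hK hL (interior_subset hz) (interior_subset hz') h0 h1]
    ring
  have hmain : volProd (join K L) = volProd K * volProd L *
      ENNReal.ofReal (sg (k + l + 1) / (sg k * sg l)) := by
    apply le_antisymm
    · -- upper bound
      have h1 : ∀ z ∈ interior K, ∀ z' ∈ interior L, volProd (join K L) ≤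
          (volume K * volume (polar K z)) * (volume L * volume (polar L z')) *
          ENNReal.ofReal (sg (k + l + 1) / (sg k * sg l)) := by
        intro z hz z' hz'
        refine (iInf₂_le (jpt z z' s₀) ?_).trans (le_of_eq ?_)
        · exact (hINT ι κ K L hK hL _).2 ⟨s₀, hs0, hs1, z, hz, z', hz', rfl⟩
        · rw [hval z hz z' hz' s₀ hs0 hs1, hs, ← hC]
          rfl
      set C := ENNReal.ofReal (sg (k + l + 1) / (sg k * sg l)) with hCdef
      have hCt : C ≠ ∞ := ENNReal.ofReal_ne_top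
      have hC0 : C ≠ 0 := by
        rw [hCdef]
        have : 0 < sg (k + l + 1) / (sg k * sg l) :=
          div_pos (sg_pos _) (mul_pos (sg_pos _) (sg_pos _))
        simpa using this
      rw [← ENNReal.div_le_iff_le_mul (Or.inl hC0) (Or.inl hCt)]
      refine ENNReal.le_mul_of_forall_lt (Or.inr (volProd_finite hL)) (Or.inl (volProd_finite hK)) ?_
      intro a' ha' b' hb'
      obtain ⟨z, hza⟩ := iInf_lt_iff.1 ha'
      obtain ⟨hz, hza⟩ := iInf_lt_iff.1 hza
      obtain ⟨z', hzb⟩ := iInf_lt_iff.1 hb'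
      obtain ⟨hz', hzb⟩ := iInf_lt_iff.1 hzb
      rw [ENNReal.div_le_iff_le_mul (Or.inl hC0) (Or.inl hCt)]
      refine (h1 z hz z' hz').trans ?_
      gcongr
    · -- lower bound
      refine le_iInf₂ fun w hw => ?_
      obtain ⟨s, h0, h1, z, hz, z', hz', rfl⟩ := (hINT ι κ K L hK hL w).1 hw
      rw [hval z hz z' hz' s h0 h1, ← hC]
      have hle : bet k l / Q k l ≤ bet k l / ((1 - s) ^ (k + 1) * s ^ (l + 1)) := by
        refine div_le_div_of_nonneg_left hb.le ?_ (hO1 s h0 h1)
        have : 0 < 1 - s := by linarith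
        positivity
      have e1 : volProd K ≤ volume K * volume (polar K z) := iInf₂_le z hz
      have e2 : volProd L ≤ volume L * volume (polar L z') := iInf₂_le z' hz'
      gcongr
  rw [hmain]
  exact alg _ _ (sg_pos _) (sg_pos _) (sg_pos _)

end Vale.Agent.P248
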