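import Vale.Agent.P248.Defs

/-! P248: weighted AM-GM (module OPT, helper27). -/

set_option autoImplicit false

namespace Vale.Agent.P248

/-- module OPT -/
theorem opt : S_OPT := by
  intro k l
  have hk : (0 : ℝ) < (k : ℝ) + 1 := by positivity
  have hl : (0 : ℝ) < (l : ℝ) + 1 := by positivity
  have hn : (0 : ℝ) < (k : ℝ) + l + 2 := by positivity
  constructor
  · intro s hs0 hs1
    have h1s : 0 < 1 - s := by linarith
    have hw : ((k : ℝ) + 1) / (k + l + 2) + ((l : ℝ) + 1) / (k + l + 2) = 1 := by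
      field_simp; ring
    have hp1 : 0 ≤ (1 - s) / ((k : ℝ) + 1) := by positivity
    have hp2 : 0 ≤ s / ((l : ℝ) + 1) := by positivity
    have key := Real.geom_mean_le_arith_mean2_weighted
      (w₁ := ((k : ℝ) + 1) / (k + l + 2)) (w₂ := ((l : ℝ) + 1) / (k + l + 2))
      (p₁ := (1 - s) / ((k : ℝ) + 1)) (p₂ := s / ((l : ℝ) + 1))
      (by positivity) (by positivity) hp1 hp2 hw
    have hrhs : ((k : ℝ) + 1) / (k + l + 2) * ((1 - s) / ((k : ℝ) + 1)) +
        ((l : ℝ) + 1) / (k + l + 2) * (s / ((l : ℝ) + 1)) = 1 / (k + l + 2) := by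
      field_simp; ring
    rw [hrhs] at key
    have key2 := pow_le_pow_left₀ (by positivity) key (k + l + 2)
    have hlhs : (((1 - s) / ((k : ℝ) + 1)) ^ (((k : ℝ) + 1) / (k + l + 2)) *
        (s / ((l : ℝ) + 1)) ^ (((l : ℝ) + 1) / (k + l + 2))) ^ (k + l + 2) =
        ((1 - s) / ((k : ℝ) + 1)) ^ (k + 1) * (s / ((l : ℝ) + 1)) ^ (l + 1) := by
      rw [mul_pow, ← Real.rpow_natCast, ← Real.rpow_natCast, ← Real.rpow_mul hp1,
        ← Real.rpow_mul hp2, ← Real.rpow_natCast, ← Real.rpow_natCast]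
      congr 2
      · push_cast; field_simp
      · push_cast; field_simp
    rw [hlhs, div_pow, div_pow, div_pow, one_pow] at key2
    rw [le_div_iff₀ (by positivity)]
    have h3 : (1 - s) ^ (k + 1) / ((k : ℝ) + 1) ^ (k + 1) * (s ^ (l + 1) / ((l : ℝ) + 1) ^ (l + 1)) =
        ((1 - s) ^ (k + 1) * s ^ (l + 1)) / (((k : ℝ) + 1) ^ (k + 1) * ((l : ℝ) + 1) ^ (l + 1)) := by
      rw [div_mul_div_comm]
    rw [h3, div_le_div_iff₀ (by positivity) (by positivity), one_mul] at key2
    exact key2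
  · refine ⟨((l : ℝ) + 1) / (k + l + 2), by positivity, ?_, ?_⟩
    · rw [div_lt_one hn]; linarith
    · have h1 : 1 - ((l : ℝ) + 1) / (k + l + 2) = ((k : ℝ) + 1) / (k + l + 2) := by
        field_simp; ring
      rw [h1, div_pow, div_pow, div_mul_div_comm, ← pow_add]
      congr 2
      omega

end Vale.Agent.P248
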