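import Vale.Agent.P248.Asym

/-!
# P248: self-improvement of exponential lower bounds, equality cases, cones
-/

namespace Vale.Agent.P248

open MeasureTheory ENNReal

/-- removal of the constant in a lower bound of exponential order -/
theorem self_improve (hM : S_MULT) (hB : S_BODY) (θ : ℝ) (hθ : 0 < θ)
    (H : ∃ c : ℝ, 0 < c ∧ ∀ (ι : Type) [Fintype ι] (K : Set (ι → ℝ)), IsBody K →
      ENNReal.ofReal (c * θ ^ Fintype.card ι) * simplexVal (Fintype.card ι) ≤ volProd K)
    (ι : Type) [Fintype ι] (K : Set (ι → ℝ)) (hK : IsBody K) :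
    ENNReal.ofReal (θ ^ (Fintype.card ι + 1)) * simplexVal (Fintype.card ι) ≤ volProd K := by
  obtain ⟨c, hc, hH⟩ := H
  set n := Fintype.card ι with hn
  rw [← ENNReal.le_div_iff_mul_le (Or.inl (AsymX.sv_pos _)) (Or.inl (AsymX.sv_top _))]
  by_contra hlt
  rw [not_le] at hlt
  set q : ℝ≥0∞ := volProd K / simplexVal n with hq
  have hqt : q ≠ ∞ := (hlt.trans ENNReal.ofReal_lt_top).ne
  set r : ℝ := q.toReal with hr
  have hr0 : 0 ≤ r := ENNReal.toReal_nonneg
  have hqr : q = ENNReal.ofReal r := (ENNReal.ofReal_toReal hqt).symm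
  have hΘ : 0 < θ ^ (n + 1) := by positivity
  have hr1 : r < θ ^ (n + 1) := by
    rw [hqr] at hlt
    exact (ENNReal.ofReal_lt_ofReal_iff hΘ).1 hlt
  have hρ : r / θ ^ (n + 1) < 1 := by
    rw [div_lt_one hΘ]; exact hr1
  have hρ0 : 0 ≤ r / θ ^ (n + 1) := by positivity
  obtain ⟨m, hm⟩ := exists_pow_lt_of_lt_one (div_pos hc hθ) hρ
  obtain ⟨κ, _, L, hL, hcard, hval⟩ := AsymX.iterate hM hB hK m
  have h1 := hH κ L hL
  rw [← ENNReal.le_div_iff_mul_le (Or.inl (AsymX.sv_pos _)) (Or.inl (AsymX.sv_top _)), hval, ← hn,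
    ← hq, hqr, ← ENNReal.ofReal_pow hr0] at h1
  have h2 : c * θ ^ Fintype.card κ ≤ r ^ (m + 1) :=
    (ENNReal.ofReal_le_ofReal_iff (by positivity)).1 h1
  have h3 : θ ^ Fintype.card κ * θ = (θ ^ (n + 1)) ^ (m + 1) := by
    rw [← pow_succ, hcard, ← pow_mul, mul_comm]
  have h4 : c / θ ≤ (r / θ ^ (n + 1)) ^ (m + 1) := by
    rw [div_pow, ← h3, div_le_div_iff₀ hθ (by positivity)]
    calc c * (θ ^ Fintype.card κ * θ) = c * θ ^ Fintype.card κ * θ := by ring
      _ ≤ r ^ (m + 1) * θ := mul_le_mul_of_nonneg_right h2 hθ.le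
  have h6 : (r / θ ^ (n + 1)) ^ (m + 1) ≤ (r / θ ^ (n + 1)) ^ m :=
    pow_le_pow_of_le_one hρ0 hρ.le (Nat.le_succ _)
  linarith

/-- the inequality and the equality case pass to joins -/
theorem closure_ (hM : S_MULT) {ι κ : Type} [Fintype ι] [Fintype κ] {K : Set (ι → ℝ)}
    {L : Set (κ → ℝ)} (hK : IsBody K) (hL : IsBody L)
    (h1 : simplexVal (Fintype.card ι) ≤ volProd K) (h2 : simplexVal (Fintype.card κ) ≤ volProd L) :
    simplexVal (Fintype.card ι + Fintype.card κ + 1) ≤ volProd (join K L) ∧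
    (volProd (join K L) = simplexVal (Fintype.card ι + Fintype.card κ + 1) ↔
      volProd K = simplexVal (Fintype.card ι) ∧ volProd L = simplexVal (Fintype.card κ)) := by
  have hm := hM ι κ K L hK hL
  have hdiv : ∀ (n : ℕ) (x : ℝ≥0∞), (1 ≤ x / simplexVal n ↔ simplexVal n ≤ x) := by
    intro n x
    rw [ENNReal.le_div_iff_mul_le (Or.inl (AsymX.sv_pos _)) (Or.inl (AsymX.sv_top _)), one_mul]
  have heq : ∀ (n : ℕ) (x : ℝ≥0∞), (x / simplexVal n = 1 ↔ x = simplexVal n) := by
    intro n x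
    rw [ENNReal.div_eq_one_iff (AsymX.sv_pos _) (AsymX.sv_top _)]
  have a1 := (hdiv _ _).2 h1
  have a2 := (hdiv _ _).2 h2
  constructor
  · rw [← hdiv, hm]
    calc (1 : ℝ≥0∞) = 1 * 1 := (one_mul 1).symm
      _ ≤ _ := mul_le_mul' a1 a2
  · rw [← heq, hm, ← heq, ← heq]
    constructor
    · intro h
      refine ⟨le_antisymm ?_ a1, le_antisymm ?_ a2⟩
      · calc volProd K / simplexVal (Fintype.card ι)
            = volProd K / simplexVal (Fintype.card ι) * 1 := (mul_one _).symm
          _ ≤ volProd K / simplexVal (Fintype.card ι) *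
              (volProd L / simplexVal (Fintype.card κ)) := mul_le_mul' le_rfl a2
          _ = 1 := h
      · calc volProd L / simplexVal (Fintype.card κ)
            = 1 * (volProd L / simplexVal (Fintype.card κ)) := (one_mul _).symm
          _ ≤ volProd K / simplexVal (Fintype.card ι) *
              (volProd L / simplexVal (Fintype.card κ)) := mul_le_mul' a1 le_rfl
          _ = 1 := h
    · rintro ⟨h, h'⟩
      rw [h, h', one_mul]

/-- the zero-dimensional body -/
theorem point_body : IsBody (Set.univ : Set (Empty → ℝ)) :=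
  ⟨isCompact_univ, convex_univ, by rw [interior_univ]; exact Set.univ_nonempty⟩

theorem sv_zero : simplexVal 0 = 1 := by
  simp [simplexVal]

theorem volProd_point : volProd (Set.univ : Set (Empty → ℝ)) = 1 := by
  have h1 : volume (Set.univ : Set (Empty → ℝ)) = 1 := by
    rw [show (Set.univ : Set (Empty → ℝ)) = Set.pi Set.univ (fun _ => (Set.univ : Set ℝ)) by
      ext; simp, volume_pi_pi]
    simp
  have h2 : ∀ z : Empty → ℝ, polar (Set.univ : Set (Empty → ℝ)) z = Set.univ := by
    intro z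
    ext y
    simp [polar]
  unfold volProd
  rw [interior_univ]
  apply le_antisymm
  · refine (iInf₂_le (fun a : Empty => a.elim) (Set.mem_univ _)).trans ?_
    rw [h2, h1, one_mul]
  · refine le_iInf₂ fun z _ => ?_
    rw [h2, h1, one_mul]

/-- cones -/
theorem cone_ (hM : S_MULT) {ι : Type} [Fintype ι] {K : Set (ι → ℝ)} (hK : IsBody K) :
    volProd (join K (Set.univ : Set (Empty → ℝ))) / simplexVal (Fintype.card ι + 1) =
      volProd K / simplexVal (Fintype.card ι) := by
  have := hM ι Empty K Set.univ hK point_body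
  rw [volProd_point, Fintype.card_empty, sv_zero, add_zero] at this
  rw [this]
  simp

end Vale.Agent.P248
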