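import Vale.Agent.P248.Defs

/-!
# P248: SLICE and SHEAR
-/

namespace Vale.Agent.P248

open MeasureTheory ENNReal Set
open scoped Pointwise

theorem slice : S_SLICE := by
  intro ι _ K z c hc
  have h : lev K z c = c • polar K z := by
    ext u
    rw [Set.mem_smul_set_iff_inv_smul_mem₀ hc.ne']
    simp only [lev, polar, mem_ofPred_eq, Pi.smul_apply, smul_eq_mul]
    refine forall₂_congr fun x _ => ?_
    have e : ∑ i, c⁻¹ * u i * (x i - z i) = c⁻¹ * ∑ i, u i * (x i - z i) := by
      rw [Finset.mul_sum]
      exact Finset.sum_congr rfl fun i _ => by ring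
    rw [e, inv_mul_le_iff₀ hc, mul_one]
  rw [h, Measure.addHaar_smul, Module.finrank_fintype_fun_eq_card,
    abs_of_nonneg (pow_nonneg hc.le _)]

theorem shear : S_SHEAR := by
  intro ι κ _ _ g hg S hS
  have h : MeasurePreserving (fun p : ((ι → ℝ) × (κ → ℝ)) × ℝ => (p.1, p.2 + g p.1))
      (volume : Measure (((ι → ℝ) × (κ → ℝ)) × ℝ)) volume := by
    have h1 := (MeasurePreserving.id (volume : Measure ((ι → ℝ) × (κ → ℝ)))).skew_product
      (μc := (volume : Measure ℝ)) (μd := (volume : Measure ℝ))
      (g := fun (a : (ι → ℝ) × (κ → ℝ)) (r : ℝ) => r + g a) ?_ ?_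
    · exact h1
    · exact (measurable_snd.add (hg.measurable.comp measurable_fst))
    · exact Filter.Eventually.of_forall fun a => map_add_right_eq_self volume (g a)
  exact h.measure_preimage hS.nullMeasurableSet

end Vale.Agent.P248
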