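import Vale.Agent.P248.Defs

/-! P248: the volume of the join (module VJ, helper27). -/

set_option autoImplicit false

namespace Vale.Agent.P248

namespace VJ

open MeasureTheory ENNReal Set Pointwise

variable {ι κ : Type} [Fintype ι] [Fintype κ]

/-- the parametrisation -/
def T (p : ((ι → ℝ) × (κ → ℝ)) × ℝ) : ((ι → ℝ) × (κ → ℝ)) × ℝ :=
  (((1 - p.2) • p.1.1, p.2 • p.1.2), p.2)

theorem T_cont : Continuous (T (ι := ι) (κ := κ)) := by
  unfold T
  fun_prop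

theorem join_eq (K : Set (ι → ℝ)) (L : Set (κ → ℝ)) :
    join K L = split ⁻¹' (T '' ((K ×ˢ L) ×ˢ Icc (0 : ℝ) 1)) := by
  ext w
  simp only [join, mem_ofPred_eq, mem_preimage, mem_image, mem_prod, Prod.exists]
  constructor
  · rintro ⟨t, ht, x, hx, y, hy, rfl⟩
    refine ⟨x, y, t, ⟨⟨hx, hy⟩, ht⟩, ?_⟩
    simp only [T, split, jpt, Prod.mk.injEq, and_true]
    constructor
    · funext i; simp
    · funext j; simp
  · rintro ⟨x, y, t, ⟨⟨hx, hy⟩, ht⟩, h⟩
    refine ⟨t, ht, x, hx, y, hy, ?_⟩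
    simp only [T, split, Prod.mk.injEq] at h
    obtain ⟨⟨h1, h2⟩, h3⟩ := h
    funext a
    rcases a with (i | j) | u
    · have := congrFun h1 i
      simp only [Pi.smul_apply, smul_eq_mul] at this
      rw [jpt, ← this]
    · have := congrFun h2 j
      simp only [Pi.smul_apply, smul_eq_mul] at this
      rw [jpt, ← this]
    · rw [jpt]; exact h3.symm

theorem slice_eq (K : Set (ι → ℝ)) (L : Set (κ → ℝ)) (t : ℝ) (ht : t ∈ Icc (0 : ℝ) 1) :
    (fun p : (ι → ℝ) × (κ → ℝ) => (p, t)) ⁻¹' (T '' ((K ×ˢ L) ×ˢ Icc (0 : ℝ) 1)) =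
      ((1 - t) • K) ×ˢ (t • L) := by
  ext p
  simp only [mem_preimage, mem_image, mem_prod, Prod.exists, T, Prod.mk.injEq, mem_smul_set]
  constructor
  · rintro ⟨x, y, s, ⟨⟨hx, hy⟩, _⟩, h1, rfl⟩
    rw [← h1]
    exact ⟨⟨x, hx, rfl⟩, ⟨y, hy, rfl⟩⟩
  · rintro ⟨⟨x, hx, h1⟩, ⟨y, hy, h2⟩⟩
    refine ⟨x, y, t, ⟨⟨hx, hy⟩, ht⟩, ?_, rfl⟩
    rw [h1, h2]

theorem slice_out (K : Set (ι → ℝ)) (L : Set (κ → ℝ)) (t : ℝ) (ht : t ∉ Icc (0 : ℝ) 1) :
    (fun p : (ι → ℝ) × (κ → ℝ) => (p, t)) ⁻¹' (T '' ((K ×ˢ L) ×ˢ Icc (0 : ℝ) 1)) = ∅ := by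
  ext p
  simp only [mem_preimage, mem_image, mem_prod, Prod.exists, T, Prod.mk.injEq,
    mem_empty_iff_false, iff_false]
  rintro ⟨x, y, s, ⟨_, hs⟩, _, rfl⟩
  exact ht hs

theorem slice_vol (K : Set (ι → ℝ)) (L : Set (κ → ℝ)) (t : ℝ) (ht : t ∈ Ioo (0 : ℝ) 1) :
    volume (((1 - t) • K) ×ˢ (t • L)) =
      ENNReal.ofReal ((1 - t) ^ Fintype.card ι * t ^ Fintype.card κ) * (volume K * volume L) := by
  have h1 : 0 ≤ 1 - t := by linarith [ht.2]
  have h2 : 0 ≤ t := ht.1.le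
  rw [Measure.volume_eq_prod, Measure.prod_prod, Measure.addHaar_smul, Measure.addHaar_smul,
    Module.finrank_fintype_fun_eq_card, Module.finrank_fintype_fun_eq_card,
    abs_of_nonneg (pow_nonneg h1 _), abs_of_nonneg (pow_nonneg h2 _),
    ENNReal.ofReal_mul (pow_nonneg h1 _)]
  ring

end VJ

open MeasureTheory ENNReal Set VJ Pointwise in
/-- module VJ -/
theorem vj (hB : S_BETA) (hE : S_EQV) : S_VJ := by
  intro ι κ _ _ K L hK hL
  set S : Set (((ι → ℝ) × (κ → ℝ)) × ℝ) := T '' ((K ×ˢ L) ×ˢ Icc (0 : ℝ) 1) with hS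
  have hScomp : IsCompact S :=
    ((hK.compact.prod hL.compact).prod isCompact_Icc).image T_cont
  have hSm : MeasurableSet S := hScomp.isClosed.measurableSet
  rw [join_eq, (hE ι κ S).1, Measure.volume_eq_prod, Measure.prod_apply_symm hSm]
  have hae : (fun t : ℝ => (volume : Measure ((ι → ℝ) × (κ → ℝ))) ((fun p => (p, t)) ⁻¹' S))
      =ᵐ[volume] (Ioo (0 : ℝ) 1).indicator (fun t => ENNReal.ofReal
        ((1 - t) ^ Fintype.card ι * t ^ Fintype.card κ) * (volume K * volume L)) := by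
    have h0 : ∀ᵐ t : ℝ, t ≠ 0 := by
      rw [ae_iff]; simp
    have h1 : ∀ᵐ t : ℝ, t ≠ 1 := by
      rw [ae_iff]; simp
    filter_upwards [h0, h1] with t ht0 ht1
    by_cases ht : t ∈ Ioo (0 : ℝ) 1
    · rw [indicator_of_mem ht, hS, slice_eq K L t ⟨ht.1.le, ht.2.le⟩, slice_vol K L t ht]
    · rw [indicator_of_notMem ht, hS, slice_out K L t, measure_empty]
      intro h
      exact ht ⟨lt_of_le_of_ne h.1 (Ne.symm ht0), lt_of_le_of_ne h.2 ht1⟩
  rw [lintegral_congr_ae hae, lintegral_indicator measurableSet_Ioo,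
    lintegral_mul_const' _ _ (ENNReal.mul_ne_top hK.compact.measure_lt_top.ne
      hL.compact.measure_lt_top.ne), mul_comm]
  congr 1
  rw [← hB, intervalIntegral.integral_of_le zero_le_one, integral_Ioc_eq_integral_Ioo,
    ofReal_integral_eq_lintegral_ofReal]
  · have hc : Continuous (fun t : ℝ => (1 - t) ^ Fintype.card ι * t ^ Fintype.card κ) := by
      fun_prop
    exact (hc.integrableOn_Icc (a := 0) (b := 1)).mono_set Ioo_subset_Icc_self
  · rw [Filter.EventuallyLE, ae_restrict_iff' measurableSet_Ioo]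
    filter_upwards with t ht
    have h1 : 0 ≤ 1 - t := by linarith [ht.2]
    have h2 : 0 ≤ t := ht.1.le
    simp only [Pi.zero_apply]
    positivity

end Vale.Agent.P248
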