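import Vale.Agent.P248.Vs

/-!
# P248: the volume of the polar of the join
-/

namespace Vale.Agent.P248

open MeasureTheory ENNReal Set

namespace VpolX

variable {ι κ : Type} [Fintype ι] [Fintype κ]

/-- the shear function -/
def gfun (z : ι → ℝ) (z' : κ → ℝ) (p : (ι → ℝ) × (κ → ℝ)) : ℝ :=
  ∑ j, p.2 j * z' j - ∑ i, p.1 i * z i

lemma expand (w : (ι ⊕ κ) ⊕ Unit → ℝ) (x z : ι → ℝ) (y z' : κ → ℝ) (t s : ℝ) :
    ∑ i, w i * (jpt x y t i - jpt z z' s i)
      = (1 - t) * (∑ i, w (Sum.inl (Sum.inl i)) * (x i - z i)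
          - s * (w (Sum.inr ()) + (∑ j, w (Sum.inl (Sum.inr j)) * z' j
            - ∑ i, w (Sum.inl (Sum.inl i)) * z i)))
        + t * (∑ j, w (Sum.inl (Sum.inr j)) * (y j - z' j)
          + (1 - s) * (w (Sum.inr ()) + (∑ j, w (Sum.inl (Sum.inr j)) * z' j
            - ∑ i, w (Sum.inl (Sum.inl i)) * z i))) := by
  rw [Fintype.sum_sum_type, Fintype.sum_sum_type]
  simp only [jpt]
  have e0 : ∑ a : Unit, w (Sum.inr a) * (t - s) = w (Sum.inr ()) * (t - s) := by simp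
  have e1 : ∑ i, w (Sum.inl (Sum.inl i)) * ((1 - t) * x i - (1 - s) * z i)
      = (1 - t) * ∑ i, w (Sum.inl (Sum.inl i)) * x i
        - (1 - s) * ∑ i, w (Sum.inl (Sum.inl i)) * z i := by
    rw [Finset.mul_sum, Finset.mul_sum, ← Finset.sum_sub_distrib]
    exact Finset.sum_congr rfl fun i _ => by ring
  have e2 : ∑ j, w (Sum.inl (Sum.inr j)) * (t * y j - s * z' j)
      = t * ∑ j, w (Sum.inl (Sum.inr j)) * y j - s * ∑ j, w (Sum.inl (Sum.inr j)) * z' j := by
    rw [Finset.mul_sum, Finset.mul_sum, ← Finset.sum_sub_distrib]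
    exact Finset.sum_congr rfl fun i _ => by ring
  have e3 : ∑ i, w (Sum.inl (Sum.inl i)) * (x i - z i)
      = ∑ i, w (Sum.inl (Sum.inl i)) * x i - ∑ i, w (Sum.inl (Sum.inl i)) * z i := by
    rw [← Finset.sum_sub_distrib]
    exact Finset.sum_congr rfl fun i _ => by ring
  have e4 : ∑ j, w (Sum.inl (Sum.inr j)) * (y j - z' j)
      = ∑ j, w (Sum.inl (Sum.inr j)) * y j - ∑ j, w (Sum.inl (Sum.inr j)) * z' j := by
    rw [← Finset.sum_sub_distrib]
    exact Finset.sum_congr rfl fun i _ => by ring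
  rw [e0, e1, e2, e3, e4]
  ring

lemma polar_eq (K : Set (ι → ℝ)) (L : Set (κ → ℝ)) (z : ι → ℝ) (z' : κ → ℝ) (s : ℝ)
    (hz : z ∈ K) (hz' : z' ∈ L) :
    polar (join K L) (jpt z z' s)
      = split ⁻¹' ((fun p : ((ι → ℝ) × (κ → ℝ)) × ℝ => (p.1, p.2 + gfun z z' p.1)) ⁻¹'
        (VsX.bodyA K L z z' s)) := by
  ext w
  simp only [mem_preimage, VsX.bodyA, split, gfun, lev, polar, mem_ofPred_eq]
  constructor
  · intro h
    constructor
    · intro x hx
      have h1 := h (jpt x z' 0) ⟨0, ⟨le_rfl, zero_le_one⟩, x, hx, z', hz', rfl⟩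
      rw [expand] at h1
      linarith
    · intro y hy
      have h1 := h (jpt z y 1) ⟨1, ⟨zero_le_one, le_rfl⟩, z, hz, y, hy, rfl⟩
      rw [expand] at h1
      linarith
  · rintro ⟨h1, h2⟩ _ ⟨t, ht, x, hx, y, hy, rfl⟩
    rw [expand]
    have h3 := h1 x hx
    have h4 := h2 y hy
    have ht0 : 0 ≤ t := ht.1
    have ht1 : 0 ≤ 1 - t := by linarith [ht.2]
    nlinarith [mul_le_mul_of_nonneg_left h3 ht1, mul_le_mul_of_nonneg_left h4 ht0]

end VpolX

open VpolX

theorem vpol (hV : S_VS) (hSh : S_SHEAR) (hE : S_EQV) : S_VPOL := by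
  intro ι κ _ _ K L z z' s hK hL hz hz' hs0 hs1
  rw [polar_eq K L z z' s hz hz', (hE ι κ _).1]
  have hg : Continuous (gfun z z') := by
    unfold gfun
    refine Continuous.sub ?_ ?_
    · exact continuous_finsetSum _ fun i _ => (by fun_prop)
    · exact continuous_finsetSum _ fun i _ => (by fun_prop)
  rw [hSh ι κ (gfun z z') hg _ (VsX.closed_bodyA K L z z' s).measurableSet]
  exact hV ι κ K L z z' s hK hL hz hz' hs0 hs1

end Vale.Agent.P248
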