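import Vale.Agent.P248.Defs

/-!
# P248: the sheared polar body, by slices
-/

namespace Vale.Agent.P248

open MeasureTheory ENNReal Set

namespace VsX

/-- the sheared body -/
def bodyA {ι κ : Type} [Fintype ι] [Fintype κ] (K : Set (ι → ℝ)) (L : Set (κ → ℝ))
    (z : ι → ℝ) (z' : κ → ℝ) (s : ℝ) : Set (((ι → ℝ) × (κ → ℝ)) × ℝ) :=
  {p | p.1.1 ∈ lev K z (1 + s * p.2) ∧ p.1.2 ∈ lev L z' (1 - (1 - s) * p.2)}

lemma closed_bodyA {ι κ : Type} [Fintype ι] [Fintype κ] (K : Set (ι → ℝ)) (L : Set (κ → ℝ))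
    (z : ι → ℝ) (z' : κ → ℝ) (s : ℝ) : IsClosed (bodyA K L z z' s) := by
  have h : bodyA K L z z' s
      = (⋂ x ∈ K, {p : ((ι → ℝ) × (κ → ℝ)) × ℝ | ∑ i, p.1.1 i * (x i - z i) ≤ 1 + s * p.2}) ∩
        ⋂ y ∈ L, {p : ((ι → ℝ) × (κ → ℝ)) × ℝ | ∑ i, p.1.2 i * (y i - z' i) ≤
          1 - (1 - s) * p.2} := by
    ext p
    simp only [bodyA, lev, mem_ofPred_eq, mem_inter_iff, mem_iInter]
  rw [h]
  refine IsClosed.inter ?_ ?_
  · refine isClosed_biInter fun x _ => isClosed_le ?_ ?_
    · exact continuous_finsetSum _ fun i _ => (by fun_prop)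
    · fun_prop
  · refine isClosed_biInter fun x _ => isClosed_le ?_ ?_
    · exact continuous_finsetSum _ fun i _ => (by fun_prop)
    · fun_prop

lemma lev_empty {ι : Type} [Fintype ι] (K : Set (ι → ℝ)) (z : ι → ℝ) (hz : z ∈ K) (c : ℝ)
    (hc : c < 0) : lev K z c = ∅ := by
  ext u
  simp only [lev, mem_ofPred_eq, mem_empty_iff_false, iff_false]
  intro h
  have := h z hz
  simp only [sub_self, mul_zero, Finset.sum_const_zero] at this
  linarith

end VsX

open VsX

theorem vs (hB : S_BETAS) (hS : S_SLICE) : S_VS := by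
  intro ι κ _ _ K L z z' s hK hL hz hz' hs0 hs1
  have h1s : 0 < 1 - s := by linarith
  set k := Fintype.card ι with hk
  set l := Fintype.card κ with hl
  set C : ℝ≥0∞ := volume (polar K z) * volume (polar L z') with hC
  change volume (bodyA K L z z' s) = _
  have hmeas : MeasurableSet (bodyA K L z z' s) := (closed_bodyA K L z z' s).measurableSet
  rw [Measure.volume_eq_prod, Measure.prod_apply_symm hmeas]
  have hslice : ∀ r : ℝ, (fun q : (ι → ℝ) × (κ → ℝ) => (q, r)) ⁻¹' (bodyA K L z z' s)
      = lev K z (1 + s * r) ×ˢ lev L z' (1 - (1 - s) * r) := by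
    intro r
    ext q
    simp only [bodyA, mem_preimage, mem_ofPred_eq, mem_prod]
  have hvol : ∀ r : ℝ, volume ((fun q : (ι → ℝ) × (κ → ℝ) => (q, r)) ⁻¹' (bodyA K L z z' s))
      = volume (lev K z (1 + s * r)) * volume (lev L z' (1 - (1 - s) * r)) := by
    intro r
    rw [hslice, Measure.volume_eq_prod, Measure.prod_prod]
  have hae : ∀ᵐ r : ℝ, volume ((fun q : (ι → ℝ) × (κ → ℝ) => (q, r)) ⁻¹' (bodyA K L z z' s))
      = (Ioo (-(1 / s)) (1 / (1 - s))).indicator
        (fun r => C * ENNReal.ofReal ((1 + s * r) ^ k * (1 - (1 - s) * r) ^ l)) r := by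
    have hcount : ({-(1 / s), 1 / (1 - s)} : Set ℝ).Countable :=
      (Set.toFinite _).countable
    filter_upwards [hcount.ae_notMem volume] with r hr
    simp only [mem_insert_iff, mem_singleton_iff, not_or] at hr
    rw [hvol]
    by_cases hmem : r ∈ Ioo (-(1 / s)) (1 / (1 - s))
    · rw [indicator_of_mem hmem]
      have ha : 0 < 1 + s * r := by
        have h2 := hmem.1
        have h3 : s * (-(1 / s)) < s * r := mul_lt_mul_of_pos_left h2 hs0
        have h4 : s * (-(1 / s)) = -1 := by field_simp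
        linarith
      have hb : 0 < 1 - (1 - s) * r := by
        have h2 := hmem.2
        have h3 : (1 - s) * r < (1 - s) * (1 / (1 - s)) := mul_lt_mul_of_pos_left h2 h1s
        have h4 : (1 - s) * (1 / (1 - s)) = 1 := by field_simp
        linarith
      rw [hS ι K z _ ha, hS κ L z' _ hb, ENNReal.ofReal_mul (by positivity), hC]
      ring
    · rw [indicator_of_notMem hmem]
      rw [mem_Ioo, not_and_or, not_lt, not_lt] at hmem
      rcases hmem with h2 | h2
      · have h3 : r < -(1 / s) := lt_of_le_of_ne h2 hr.1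
        have h4 : s * r < s * (-(1 / s)) := mul_lt_mul_of_pos_left h3 hs0
        have h5 : s * (-(1 / s)) = -1 := by field_simp
        rw [lev_empty K z hz _ (by linarith), measure_empty, zero_mul]
      · have h3 : 1 / (1 - s) < r := lt_of_le_of_ne h2 (Ne.symm hr.2)
        have h4 : (1 - s) * (1 / (1 - s)) < (1 - s) * r := mul_lt_mul_of_pos_left h3 h1s
        have h5 : (1 - s) * (1 / (1 - s)) = 1 := by field_simp
        rw [lev_empty L z' hz' _ (by linarith), measure_empty, mul_zero]
  rw [lintegral_congr_ae hae, lintegral_indicator measurableSet_Ioo]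
  have hcont : Continuous fun r : ℝ => (1 + s * r) ^ k * (1 - (1 - s) * r) ^ l := by fun_prop
  rw [lintegral_const_mul _ (hcont.measurable.ennreal_ofReal)]
  congr 1
  have hle : -(1 / s) ≤ 1 / (1 - s) := by
    have h2 : 0 < 1 / s := by positivity
    have h3 : 0 < 1 / (1 - s) := by positivity
    linarith
  rw [← hB k l s hs0 hs1, intervalIntegral.integral_of_le hle, integral_Ioc_eq_integral_Ioo,
    ofReal_integral_eq_lintegral_ofReal]
  · exact (hcont.integrableOn_Icc).mono_set Ioo_subset_Icc_self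
  · refine (ae_restrict_mem measurableSet_Ioo).mono fun r hmem => ?_
    have ha : 0 ≤ 1 + s * r := by
      have h2 := hmem.1
      have h3 : s * (-(1 / s)) < s * r := mul_lt_mul_of_pos_left h2 hs0
      have h4 : s * (-(1 / s)) = -1 := by field_simp
      linarith
    have hb : 0 ≤ 1 - (1 - s) * r := by
      have h2 := hmem.2
      have h3 : (1 - s) * r < (1 - s) * (1 / (1 - s)) := mul_lt_mul_of_pos_left h2 h1s
      have h4 : (1 - s) * (1 / (1 - s)) = 1 := by field_simp
      linarith
    exact mul_nonneg (pow_nonneg ha _) (pow_nonneg hb _)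

end Vale.Agent.P248
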